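import Mathlib
import Vale.Agent.P040.Drawing
import Vale.Agent.P040.Sph.GDrawing

/-!
# Central projection of rectilinear drawings to the sphere
-/

namespace Vale.Agent.P040.Upper

open Set

/-- The norm of `(p, 1)`. -/
noncomputable def nr (p : Plane) : ℝ := Real.sqrt (p.1 ^ 2 + p.2 ^ 2 + 1)

theorem nr_pos (p : Plane) : 0 < nr p := Real.sqrt_pos.2 (by positivity)

theorem nr_sq (p : Plane) : nr p ^ 2 = p.1 ^ 2 + p.2 ^ 2 + 1 := Real.sq_sqrt (by positivity)

/-- Central projection of the plane to the open upper half-sphere. -/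
noncomputable def cp (p : Plane) : E3 := !₂[p.1 / nr p, p.2 / nr p, 1 / nr p]

theorem cp0 (p : Plane) : cp p 0 = p.1 / nr p := rfl
theorem cp1 (p : Plane) : cp p 1 = p.2 / nr p := rfl
theorem cp2 (p : Plane) : cp p 2 = 1 / nr p := rfl

theorem cp_inj : Function.Injective cp := by
  intro p q h
  have h0 := congrArg (fun z : E3 => z 0) h
  have h1 := congrArg (fun z : E3 => z 1) h
  have h2 := congrArg (fun z : E3 => z 2) h
  simp only [cp0, cp1, cp2] at h0 h1 h2
  have hp := nr_pos p
  have hq := nr_pos q
  have hn : nr p = nr q := by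
    field_simp at h2
    exact h2.symm
  rw [hn] at h0 h1
  apply Prod.ext
  · exact (div_left_inj' hq.ne').1 h0
  · exact (div_left_inj' hq.ne').1 h1

theorem norm_eq_one_iff (x : E3) : ‖x‖ = 1 ↔ x 0 ^ 2 + x 1 ^ 2 + x 2 ^ 2 = 1 := by
  rw [EuclideanSpace.norm_eq, Real.sqrt_eq_one, Fin.sum_univ_three]
  simp only [Real.norm_eq_abs, sq_abs]

theorem norm_cp (p : Plane) : ‖cp p‖ = 1 := by
  rw [norm_eq_one_iff, cp0, cp1, cp2]
  have hp := nr_pos p
  have h := nr_sq p
  rw [div_pow, div_pow, div_pow, one_pow, ← add_div, ← add_div, h, div_self]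
  rw [← h]
  positivity

theorem geodArc_cp (p q : Plane) : geodArc (cp p) (cp q) = cp '' segment ℝ p q := by
  have hp := nr_pos p
  have hq := nr_pos q
  ext x
  constructor
  · rintro ⟨hx, s, t, hs, ht, rfl⟩
    set a := s / nr p with ha
    set b := t / nr q with hb
    have ha0 : 0 ≤ a := by positivity
    have hb0 : 0 ≤ b := by positivity
    have e0 : (s • cp p + t • cp q) 0 = a * p.1 + b * q.1 := by
      show s * cp p 0 + t * cp q 0 = _
      rw [cp0, cp0, ha, hb]; ring
    have e1 : (s • cp p + t • cp q) 1 = a * p.2 + b * q.2 := by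
      show s * cp p 1 + t * cp q 1 = _
      rw [cp1, cp1, ha, hb]; ring
    have e2 : (s • cp p + t • cp q) 2 = a + b := by
      show s * cp p 2 + t * cp q 2 = _
      rw [cp2, cp2, ha, hb]; ring
    rw [norm_eq_one_iff, e0, e1, e2] at hx
    have hab : 0 < a + b := by
      rcases lt_or_eq_of_le (add_nonneg ha0 hb0) with h | h
      · exact h
      · have h1 : a = 0 := by linarith
        have h2 : b = 0 := by linarith
        rw [h1, h2] at hx
        norm_num at hx
    set c := a + b with hc
    refine ⟨(a / c) • p + (b / c) • q, ⟨a / c, b / c, by positivity, by positivity, ?_, rfl⟩, ?_⟩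
    · rw [← add_div, ← hc, div_self hab.ne']
    · have f1 : ((a / c) • p + (b / c) • q).1 = (a * p.1 + b * q.1) / c := by
        simp only [Prod.fst_add, Prod.smul_fst, smul_eq_mul]; ring
      have f2 : ((a / c) • p + (b / c) • q).2 = (a * p.2 + b * q.2) / c := by
        simp only [Prod.snd_add, Prod.smul_snd, smul_eq_mul]; ring
      have f3 : nr ((a / c) • p + (b / c) • q) = 1 / c := by
        unfold nr
        rw [f1, f2, Real.sqrt_eq_iff_mul_self_eq (by positivity) (by positivity)]
        field_simp
        linarith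
      ext k
      fin_cases k
      · show cp _ 0 = (s • cp p + t • cp q) 0
        rw [cp0, f1, f3, e0]
        field_simp
      · show cp _ 1 = (s • cp p + t • cp q) 1
        rw [cp1, f2, f3, e1]
        field_simp
      · show cp _ 2 = (s • cp p + t • cp q) 2
        rw [cp2, f3, e2]
        field_simp
  · rintro ⟨y, ⟨a, b, ha, hb, hab, rfl⟩, rfl⟩
    refine ⟨norm_cp _, a * nr p / nr (a • p + b • q), b * nr q / nr (a • p + b • q), ?_, ?_, ?_⟩
    · have := nr_pos (a • p + b • q)
      positivity
    · have := nr_pos (a • p + b • q)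
      positivity
    · have hy := nr_pos (a • p + b • q)
      set N := nr (a • p + b • q) with hN
      ext k
      fin_cases k
      · show cp (a • p + b • q) 0 = a * nr p / N * cp p 0 + b * nr q / N * cp q 0
        rw [cp0, cp0, cp0, ← hN]
        simp only [Prod.fst_add, Prod.smul_fst, smul_eq_mul]
        field_simp
      · show cp (a • p + b • q) 1 = a * nr p / N * cp p 1 + b * nr q / N * cp q 1
        rw [cp1, cp1, cp1, ← hN]
        simp only [Prod.snd_add, Prod.smul_snd, smul_eq_mul]
        field_simp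
      · show cp (a • p + b • q) 2 = a * nr p / N * cp p 2 + b * nr q / N * cp q 2
        rw [cp2, cp2, cp2, ← hN]
        field_simp
        linarith

variable {V : Type} {G : SimpleGraph V}

theorem edgeArc_cp (D : Drawing G) (hD : D.Rectilinear) {e : Sym2 V} (he : e ∈ G.edgeSet) :
    edgeArc (fun v => cp (D.pos v)) e = cp '' D.arc e := by
  induction e using Sym2.ind with
  | _ u v =>
    rw [SimpleGraph.mem_edgeSet] at he
    rw [hD u v he]
    ext x
    constructor
    · rintro ⟨a, b, hab, hx⟩
      rw [geodArc_cp] at hx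
      rcases Sym2.eq_iff.1 hab with ⟨rfl, rfl⟩ | ⟨rfl, rfl⟩
      · exact hx
      · rw [segment_symm]; exact hx
    · intro hx
      refine ⟨u, v, rfl, ?_⟩
      rw [geodArc_cp]
      exact hx

theorem mem_cp_arc {S : Set Plane} {p : Plane} : cp p ∈ cp '' S ↔ p ∈ S :=
  cp_inj.mem_set_image

theorem range_cp (D : Drawing G) :
    range (fun v => cp (D.pos v)) = cp '' range D.pos := by
  rw [← range_comp]; rfl

/-- The central projection of a rectilinear drawing. -/
noncomputable def toSphere (D : Drawing G) (hD : D.Rectilinear) : GeodesicDrawing G where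
  pos := fun v => cp (D.pos v)
  norm_pos := fun v => norm_cp _
  pos_inj := cp_inj.comp D.pos_inj
  not_antipodal := by
    intro u v _ h
    have h2 := congrArg (fun z : E3 => z 2) h
    have h3 : cp (D.pos u) 2 = - cp (D.pos v) 2 := h2
    rw [cp2, cp2] at h3
    have h4 : 0 < 1 / nr (D.pos u) := one_div_pos.2 (nr_pos _)
    have h5 : 0 < 1 / nr (D.pos v) := one_div_pos.2 (nr_pos _)
    linarith
  avoid := by
    intro e he w hw
    rw [edgeArc_cp D hD he, mem_cp_arc] at hw
    exact D.avoid e he w hw
  finite := by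
    intro e he f hf hef
    rw [edgeArc_cp D hD he, edgeArc_cp D hD hf, range_cp, ← image_sdiff cp_inj,
      ← image_sdiff cp_inj, ← image_inter cp_inj]
    exact (D.finite e he f hf hef).image _
  two := by
    intro e he f hf g hg hef heg hfg x hx he' hf' hg'
    rw [range_cp] at hx
    rw [edgeArc_cp D hD he] at he'
    rw [edgeArc_cp D hD hf] at hf'
    rw [edgeArc_cp D hD hg] at hg'
    obtain ⟨y, hy, rfl⟩ := he'
    rw [mem_cp_arc] at hf' hg'
    exact D.two e he f hf g hg hef heg hfg y (fun h => hx ⟨y, h, rfl⟩) hy hf' hg'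

theorem toSphere_crossings (D : Drawing G) (hD : D.Rectilinear) :
    (toSphere D hD).crossings = D.crossings := by
  have : (toSphere D hD).crossingSet = cp '' D.crossingSet := by
    ext x
    constructor
    · rintro ⟨hx, e, he, f, hf, hef, h1, h2⟩
      have h1' : x ∈ edgeArc (fun v => cp (D.pos v)) e := h1
      have h2' : x ∈ edgeArc (fun v => cp (D.pos v)) f := h2
      rw [edgeArc_cp D hD he] at h1'
      rw [edgeArc_cp D hD hf] at h2'
      obtain ⟨y, hy, rfl⟩ := h1'
      rw [mem_cp_arc] at h2'
      refine ⟨y, ⟨?_, e, he, f, hf, hef, hy, h2'⟩, rfl⟩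
      rintro ⟨v, rfl⟩
      exact hx ⟨v, rfl⟩
    · rintro ⟨y, ⟨hy, e, he, f, hf, hef, h1, h2⟩, rfl⟩
      refine ⟨?_, e, he, f, hf, hef, ?_, ?_⟩
      · rintro ⟨v, hv⟩
        exact hy ⟨v, cp_inj hv⟩
      · show cp y ∈ edgeArc (fun v => cp (D.pos v)) e
        rw [edgeArc_cp D hD he, mem_cp_arc]
        exact h1
      · show cp y ∈ edgeArc (fun v => cp (D.pos v)) f
        rw [edgeArc_cp D hD hf, mem_cp_arc]
        exact h2
  unfold GeodesicDrawing.crossings Drawing.crossings
  rw [this, ncard_image_of_injective _ cp_inj]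

end Vale.Agent.P040.Upper
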